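import Vale.Agent.P251EJ.DefsA
import Mathlib.Algebra.Polynomial.Laurent

/-!
# P251EJ, row GRA: the grading of `BP_* E(n+1)`
-/

open MvPolynomial

noncomputable section

namespace Vale.Agent.P251EJ56

open Vale.Agent.P221.T Vale.Agent.P221.T.H520 Vale.Agent.P251EJ

/-- a grading from a scaling homomorphism -/
theorem internal_of_scale {A : Type} [CommRing A] (H : ℤ → AddSubgroup A)
    (δ : A →+ LaurentPolynomial A)
    (h1 : ∀ d, ∀ a ∈ H d, δ a = LaurentPolynomial.C a * LaurentPolynomial.T d)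
    (h2 : ∀ a, a ∈ ⨆ d, H d) : DirectSum.IsInternal H := by
  have key : ∀ (z : DirectSum ℤ fun d => H d) (d : ℤ),
      (δ (DirectSum.coeAddMonoidHom H z)).coeff d = (z d : A) := by
    intro z d
    induction z using DirectSum.induction_on with
    | zero => simp
    | of i x =>
      rw [DirectSum.coeAddMonoidHom_of, h1 i x x.2, ← LaurentPolynomial.single_eq_C_mul_T,
        AddMonoidAlgebra.coeff_single]
      by_cases h : i = d
      · subst h
        rw [Finsupp.single_eq_same, DirectSum.of_eq_same]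
      · rw [DirectSum.of_eq_of_ne _ _ _ (Ne.symm h), Finsupp.single_eq_of_ne (Ne.symm h)]
        rfl
    | add x y hx hy =>
      rw [map_add, map_add, DirectSum.add_apply, AddSubgroup.coe_add, ← hx, ← hy]
      simp
  constructor
  · rw [injective_iff_map_eq_zero]
    intro z hz
    ext d
    rw [← key z d, hz, map_zero]
    simp
  · intro a
    refine AddSubgroup.iSup_induction H (C := fun a => ∃ z, DirectSum.coeAddMonoidHom H z = a)
      (h2 a) (fun d x hx => ⟨DirectSum.of _ d ⟨x, hx⟩, DirectSum.coeAddMonoidHom_of _ _ _⟩)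
      ⟨0, map_zero _⟩ ?_
    rintro _ _ ⟨x, rfl⟩ ⟨y, rfl⟩
    exact ⟨x + y, map_add _ _ _⟩

theorem scale_monomial {K A : Type} [CommRing K] [CommRing A]
    (σ : MvPolynomial ℕ K →+* LaurentPolynomial A) (φ : MvPolynomial ℕ K →+* A) (w : ℕ → ℤ)
    (h : ∀ i, σ (X i) = LaurentPolynomial.C (φ (X i)) * LaurentPolynomial.T (w i)) (E : ℕ →₀ ℕ) :
    σ (monomial E 1) =
      LaurentPolynomial.C (φ (monomial E 1)) * LaurentPolynomial.T (Finsupp.weight w E) := by
  induction E using Finsupp.induction_linear with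
  | zero => simp [monomial_zero', map_one]
  | add E F hE hF =>
    have e : (monomial (E + F) 1 : MvPolynomial ℕ K) = monomial E 1 * monomial F 1 := by
      rw [monomial_mul, one_mul]
    rw [e, map_mul, hE, hF, map_mul, map_mul, map_add, LaurentPolynomial.T_add]
    ring
  | single i k =>
    rw [← X_pow_eq_monomial, map_pow, h, map_pow, map_pow, mul_pow, LaurentPolynomial.T_pow,
      Finsupp.weight_single, nsmul_eq_mul]

variable (p : ℕ) [hp : Fact p.Prime]

theorem sV_wz (i : ℕ) : sV p (i + 1) = 2 * wz p i := sV_eq i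

theorem dT_wz (E : ℕ →₀ ℕ) : dT p E = 2 * Finsupp.weight (wz p) E := by
  unfold dT
  induction E using Finsupp.induction_linear with
  | zero => simp
  | add E F hE hF => rw [map_add, map_add, hE, hF]; ring
  | single i k =>
    rw [Finsupp.weight_single, Finsupp.weight_single, sV_wz, nsmul_eq_mul, nsmul_eq_mul]
    ring

variable {p}

theorem HG_mono (E F : ℕ →₀ ℕ) (z : Z0 p) :
    HG p (2 * (Finsupp.weight (wz p) E + Finsupp.weight (wz p) F)) (monomial E (monomial F z)) := by
  classical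
  intro E'
  rw [coeff_monomial]
  split_ifs with h
  · subst h
    refine isWeightedHomogeneous_monomial _ _ _ ?_
    change dT p F = _
    rw [dT_wz, dT_wz]
    ring
  · exact isWeightedHomogeneous_zero _ _ _

theorem as_mono (x : G0 p) :
    x = ∑ E ∈ x.support, ∑ F ∈ (coeff E x).support, monomial E (monomial F (coeff F (coeff E x))) := by
  conv_lhs => rw [x.as_sum]
  refine Finset.sum_congr rfl fun E _ => ?_
  conv_lhs => rw [(coeff E x).as_sum]
  rw [map_sum]

theorem HG_neg {k : ℤ} {x : G0 p} (h : HG p k x) : HG p k (-x) := fun E => by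
  rw [coeff_neg]
  intro F hF
  rw [coeff_neg, neg_ne_zero] at hF
  exact h E hF

theorem HG_eta (i : ℕ) : HG p (2 * wz p i) (eta0 p i) := by
  rw [← sV_wz]
  exact eta0_HG p i

theorem HG_eta_pow (i j : ℕ) : HG p (2 * (j * wz p i)) (eta0 p i ^ j) := by
  have h := (HG_eta (p := p) i).pow j
  have e : (j : ℤ) * (2 * wz p i) = 2 * (j * wz p i) := by ring
  rwa [e] at h

section scale

variable {A : Type} [CommRing A] (q : G0 p →+* A)

/-- the scaling homomorphism on `G0 p` -/
def sc0 : G0 p →+* LaurentPolynomial A :=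
  eval₂Hom (eval₂Hom (LaurentPolynomial.C.comp (q.comp (C.comp C)))
    fun i => LaurentPolynomial.C (q (C (X i))) * LaurentPolynomial.T (wz p i))
    fun k => LaurentPolynomial.C (q (X k)) * LaurentPolynomial.T (wz p k)

theorem sc0_mono (E F : ℕ →₀ ℕ) (z : Z0 p) : sc0 q (monomial E (monomial F z)) =
    LaurentPolynomial.C (q (monomial E (monomial F z))) *
      LaurentPolynomial.T (Finsupp.weight (wz p) E + Finsupp.weight (wz p) F) := by
  have e : (monomial E (monomial F z) : G0 p) = C (C z) * C (monomial F 1) * monomial E 1 := by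
    rw [← map_mul, C_mul_monomial, C_mul_monomial, mul_one, mul_one]
  have h1 : sc0 q (C (C z)) = LaurentPolynomial.C (q (C (C z))) := by
    rw [sc0, eval₂Hom_C, eval₂Hom_C]
    rfl
  have h2 := scale_monomial ((sc0 q).comp C) (q.comp C) (wz p) (fun i => by
    rw [RingHom.comp_apply, sc0, eval₂Hom_C, eval₂Hom_X']
    rfl) F
  have h3 := scale_monomial (sc0 q) q (wz p) (fun i => by rw [sc0, eval₂Hom_X']) E
  rw [RingHom.comp_apply, RingHom.comp_apply] at h2
  rw [e, map_mul, map_mul, h1, h2, h3, map_mul, map_mul, map_mul, map_mul, LaurentPolynomial.T_add]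
  ring

theorem sc0_HG {d : ℤ} {x : G0 p} (hx : HG p (2 * d) x) :
    sc0 q x = LaurentPolynomial.C (q x) * LaurentPolynomial.T d := by
  rw [as_mono x, map_sum, map_sum, map_sum, Finset.sum_mul]
  refine Finset.sum_congr rfl fun E _ => ?_
  rw [map_sum, map_sum, map_sum, Finset.sum_mul]
  refine Finset.sum_congr rfl fun F hF => ?_
  have h : dT p F = 2 * d - dT p E := hx E (mem_support_iff.1 hF)
  rw [dT_wz, dT_wz] at h
  rw [sc0_mono, show Finsupp.weight (wz p) E + Finsupp.weight (wz p) F = d by omega]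

end scale

variable (p)

/-- the homogeneous elements of `AA p n` -/
def HA (n : ℕ) (d : ℤ) : AddSubgroup (AA p n) where
  carrier := {a | ∃ (j : ℕ) (x : G0 p), HG p (2 * (d + j * wz p n)) x ∧
    qA p n (eta0 p n) ^ j * a = qA p n x}
  zero_mem' := ⟨0, 0, HG.zero _, by rw [mul_zero, map_zero]⟩
  neg_mem' := by
    rintro a ⟨j, x, h1, h2⟩
    exact ⟨j, -x, HG_neg h1, by rw [mul_neg, h2, map_neg]⟩
  add_mem' := by
    rintro a b ⟨j, x, h1, h2⟩ ⟨k, y, h3, h4⟩
    refine ⟨j + k, eta0 p n ^ k * x + eta0 p n ^ j * y, HG.add ?_ ?_, ?_⟩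
    · have h := (HG_eta_pow (p := p) n k).mul h1
      convert h using 1
      push_cast
      ring
    · have h := (HG_eta_pow (p := p) n j).mul h3
      convert h using 1
      push_cast
      ring
    · rw [map_add, map_mul, map_mul, map_pow, map_pow, ← h2, ← h4]
      ring

theorem unit_w (n : ℕ) : IsUnit (qA p n (eta0 p n)) :=
  IsLocalization.Away.algebraMap_isUnit (S := AA p n) (Ideal.Quotient.mk (JJ p n) (eta0 p n))

theorem q_eta {n j : ℕ} (h : n < j) : qA p n (eta0 p j) = 0 := by
  have h1 : Ideal.Quotient.mk (JJ p n) (eta0 p j) = 0 :=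
    Ideal.Quotient.eq_zero_iff_mem.2 (Ideal.subset_span ⟨j, h, rfl⟩)
  rw [qA, qL, RingHom.comp_apply, h1, map_zero]

theorem exists_frac (n : ℕ) (a : AA p n) :
    ∃ (j : ℕ) (x : G0 p), qA p n (eta0 p n) ^ j * a = qA p n x := by
  obtain ⟨j, y, h⟩ := IsLocalization.Away.surj (Ideal.Quotient.mk (JJ p n) (eta0 p n)) a
  obtain ⟨x, rfl⟩ := Ideal.Quotient.mk_surjective y
  exact ⟨j, x, by rw [mul_comm]; exact h⟩

theorem exists_scale (n : ℕ) : ∃ δ : AA p n →+* LaurentPolynomial (AA p n),
    ∀ x, δ (qA p n x) = sc0 (qA p n) x := by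
  have h0 : ∀ x ∈ JJ p n, sc0 (qA p n) x = 0 := by
    intro x hx
    have h : JJ p n ≤ RingHom.ker (sc0 (qA p n)) := by
      refine Ideal.span_le.2 ?_
      rintro _ ⟨j, hj, rfl⟩
      change sc0 (qA p n) (eta0 p j) = 0
      rw [sc0_HG _ (HG_eta j), q_eta p hj, map_zero, zero_mul]
    exact h hx
  have hu : IsUnit (Ideal.Quotient.lift (JJ p n) (sc0 (qA p n)) h0
      (Ideal.Quotient.mk (JJ p n) (eta0 p n))) := by
    rw [Ideal.Quotient.lift_mk, sc0_HG _ (HG_eta n)]
    exact ((unit_w p n).map _).mul (LaurentPolynomial.isUnit_T _)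
  refine ⟨IsLocalization.Away.lift (Ideal.Quotient.mk (JJ p n) (eta0 p n)) hu, fun x => ?_⟩
  exact (IsLocalization.Away.lift_eq (Ideal.Quotient.mk (JJ p n) (eta0 p n)) hu _).trans
    (Ideal.Quotient.lift_mk _ _ _)

theorem internal_HA (n : ℕ) : DirectSum.IsInternal (HA p n) := by
  obtain ⟨δ, hδ⟩ := exists_scale p n
  refine internal_of_scale _ δ.toAddMonoidHom ?_ ?_
  · rintro d a ⟨j, x, h1, h2⟩
    have h3 := congrArg δ h2
    rw [map_mul, map_pow, hδ, hδ, sc0_HG _ h1, sc0_HG _ (HG_eta n), ← h2] at h3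
    have hu : IsUnit ((LaurentPolynomial.C (qA p n (eta0 p n)) *
        LaurentPolynomial.T (wz p n)) ^ j) :=
      (((unit_w p n).map _).mul (LaurentPolynomial.isUnit_T _)).pow j
    refine hu.mul_left_cancel (h3.trans ?_)
    rw [mul_pow, LaurentPolynomial.T_pow, map_mul, map_pow, LaurentPolynomial.T_add]
    ring
  · intro a
    obtain ⟨j, x, h⟩ := exists_frac p n a
    obtain ⟨u, hu⟩ := ((unit_w p n).pow j).exists_left_inv
    have e : a = u * qA p n x := by rw [← h, ← mul_assoc, hu, one_mul]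
    rw [e, as_mono x, map_sum, Finset.mul_sum]
    refine AddSubgroup.sum_mem _ fun E _ => ?_
    rw [map_sum, Finset.mul_sum]
    refine AddSubgroup.sum_mem _ fun F _ => ?_
    refine AddSubgroup.mem_iSup_of_mem
      (Finsupp.weight (wz p) E + Finsupp.weight (wz p) F - j * wz p n)
      ⟨j, monomial E (monomial F (coeff F (coeff E x))), ?_, ?_⟩
    · rw [sub_add_cancel]
      exact HG_mono _ _ _
    · rw [← mul_assoc, mul_comm _ u, hu, one_mul]

theorem gradedMonoid_HA (n : ℕ) : SetLike.GradedMonoid (HA p n) where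
  one_mem := ⟨0, 1, by
    have h := HG.CC (1 : Z0 p)
    rw [map_one, map_one] at h
    simpa using h, by rw [pow_zero, one_mul, map_one]⟩
  mul_mem := by
    rintro d e a b ⟨j, x, h1, h2⟩ ⟨k, y, h3, h4⟩
    refine ⟨j + k, x * y, ?_, ?_⟩
    · convert h1.mul h3 using 1
      push_cast
      ring
    · rw [map_mul, ← h2, ← h4]
      ring

/-- **row GRA** -/
theorem gradeA (n : ℕ) : GradeA p n :=
  ⟨HA p n, { gradedMonoid_HA p n, (internal_HA p n).chooseDecomposition with },
    fun d x hx => ⟨0, x, by simpa using hx, by rw [pow_zero, one_mul]⟩, fun _ _ ha => ha⟩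

end Vale.Agent.P251EJ56
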