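import Vale.Agent.P251EJ.DefsS
import Mathlib.Data.Finset.Sort
import Mathlib.Data.Set.Card

/-!
# P251EJ, row CELL: the cells of the powers of the sphere
-/

open Set Topology OnePoint

noncomputable section

namespace Vale.Agent.P251EJ56

open Vale.Agent.P251EJ

variable {n M d : ℕ} (h : ℝ → ℝ) (χ : (Fin n → ℝ) → Sp n)

/-- the set of the coordinates -/
def coords (y : Fin M → Sp n) : Set ℝ :=
  {u | u ∈ Ioo (0 : ℝ) 1 ∧ ∃ (i : Fin M) (v : Fin n → ℝ) (k : Fin n), y i = (v : Sp n) ∧ v k = h u}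

/-- the characteristic maps -/
def cell (ρ : Fin M → Option (Fin n → Fin d)) (t : Fin d → ℝ) : Fin M → Sp n :=
  fun i => (ρ i).elim ∞ fun r => χ (t ∘ r)

/-- jointly onto -/
def Onto (ρ : Fin M → Option (Fin n → Fin d)) : Prop :=
  ∀ j, ∃ i r k, ρ i = Option.some r ∧ r k = j

variable {h χ}

theorem coords_perm (σ : Equiv.Perm (Fin M)) (y : Fin M → Sp n) :
    coords h (y ∘ σ) = coords h y := by
  ext u
  constructor
  · rintro ⟨h1, i, v, k, h2, h3⟩
    exact ⟨h1, σ i, v, k, h2, h3⟩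
  · rintro ⟨h1, i, v, k, h2, h3⟩
    exact ⟨h1, σ.symm i, v, k, by simpa using h2, h3⟩

theorem coords_sub (hb : BijOn h (Ioo 0 1) univ) (y : Fin M → Sp n) :
    ∃ f : Fin M × Fin n → ℝ, coords h y ⊆ range f := by
  refine ⟨fun ik => Function.invFunOn h (Ioo 0 1) ((y ik.1).elim 0 fun v => v ik.2), ?_⟩
  rintro u ⟨h1, i, v, k, h2, h3⟩
  refine ⟨(i, k), ?_⟩
  have h4 : (y i).elim 0 (fun v => v k) = h u := by
    rw [h2]
    exact h3
  change Function.invFunOn h (Ioo 0 1) ((y i).elim 0 fun v => v k) = u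
  rw [h4]
  exact hb.injOn.leftInvOn_invFunOn h1

theorem coords_finite (hb : BijOn h (Ioo 0 1) univ) (y : Fin M → Sp n) : (coords h y).Finite := by
  obtain ⟨f, hf⟩ := coords_sub hb y
  exact (finite_range f).subset hf

theorem coords_card (hb : BijOn h (Ioo 0 1) univ) (y : Fin M → Sp n) :
    (coords h y).ncard ≤ M * n := by
  obtain ⟨f, hf⟩ := coords_sub hb y
  refine (ncard_le_ncard hf (finite_range f)).trans ?_
  rw [← image_univ]
  refine (ncard_image_le finite_univ).trans ?_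
  rw [ncard_univ, Nat.card_eq_fintype_card, Fintype.card_prod, Fintype.card_fin, Fintype.card_fin]

section

variable (hb : BijOn h (Ioo 0 1) univ)
  (h1 : ∀ t, (∀ i, t i ∈ Ioo (0 : ℝ) 1) → χ t = ((fun i => h (t i) : Fin n → ℝ) : Sp n))
  (h2 : ∀ t, ¬ (∀ i, t i ∈ Ioo (0 : ℝ) 1) → χ t = ∞)

include hb h1 h2

theorem coords_cell_sub (ρ : Fin M → Option (Fin n → Fin d)) (t : Fin d → ℝ) {u : ℝ}
    (hu : u ∈ coords h (cell χ ρ t)) : u ∈ Ioo (0 : ℝ) 1 ∧ ∃ j, t j = u := by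
  obtain ⟨hu, i, v, k, h3, h4⟩ := hu
  refine ⟨hu, ?_⟩
  unfold cell at h3
  rcases hr : ρ i with _ | r
  · rw [hr] at h3
    exact absurd h3 (infty_ne_coe v)
  · rw [hr] at h3
    change χ (t ∘ r) = _ at h3
    by_cases h5 : ∀ i, (t ∘ r) i ∈ Ioo (0 : ℝ) 1
    · rw [h1 _ h5, coe_eq_coe] at h3
      exact ⟨r k, hb.injOn (h5 k) hu ((congrFun h3 k).trans h4)⟩
    · rw [h2 _ h5] at h3
      exact absurd h3 (infty_ne_coe v)

theorem coords_cell {ρ : Fin M → Option (Fin n → Fin d)} (hρ : Onto ρ) {t : Fin d → ℝ}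
    (ht : ∀ i, t i ∈ Ioo (0 : ℝ) 1) : coords h (cell χ ρ t) = range t := by
  refine Subset.antisymm (fun u hu => (coords_cell_sub hb h1 h2 ρ t hu).2) ?_
  rintro _ ⟨j, rfl⟩
  obtain ⟨i, r, k, h3, rfl⟩ := hρ j
  refine ⟨ht _, i, fun k => h (t (r k)), k, ?_, rfl⟩
  unfold cell
  rw [h3]
  exact h1 (t ∘ r) fun k => ht _

theorem card_bd (ρ : Fin M → Option (Fin n → Fin d)) {t : Fin d → ℝ} (hm : Monotone t)
    (ht : ¬ (StrictMono t ∧ ∀ i, t i ∈ Ioo (0 : ℝ) 1)) : (coords h (cell χ ρ t)).ncard < d := by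
  have h3 : ∃ j, coords h (cell χ ρ t) ⊆ t '' {j}ᶜ := by
    by_cases h4 : ∀ i, t i ∈ Ioo (0 : ℝ) 1
    · have h5 : ¬ Function.Injective t := fun h5 => ht ⟨hm.strictMono_of_injective h5, h4⟩
      obtain ⟨a, b, hab, hne⟩ := Function.not_injective_iff.1 h5
      refine ⟨a, fun u hu => ?_⟩
      obtain ⟨j, rfl⟩ := (coords_cell_sub hb h1 h2 ρ t hu).2
      by_cases hj : j = a
      · exact ⟨b, Ne.symm hne, by rw [hj, hab]⟩
      · exact ⟨j, hj, rfl⟩
    · obtain ⟨a, ha⟩ := not_forall.1 h4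
      refine ⟨a, fun u hu => ?_⟩
      obtain ⟨h5, j, rfl⟩ := coords_cell_sub hb h1 h2 ρ t hu
      exact ⟨j, fun hj => ha (by rw [← mem_singleton_iff.1 hj]; exact h5), rfl⟩
  obtain ⟨j, hj⟩ := h3
  have h4 : ({j}ᶜ : Set (Fin d)).ncard < (univ : Set (Fin d)).ncard :=
    ncard_lt_ncard ⟨subset_univ _, fun h5 => h5 (mem_univ j) rfl⟩ finite_univ
  rw [ncard_univ, Nat.card_eq_fintype_card, Fintype.card_fin] at h4
  exact ((ncard_le_ncard hj (toFinite _)).trans (ncard_image_le (toFinite _))).trans_lt h4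

theorem card_int {ρ : Fin M → Option (Fin n → Fin d)} (hρ : Onto ρ) {t : Fin d → ℝ}
    (hm : StrictMono t) (ht : ∀ i, t i ∈ Ioo (0 : ℝ) 1) : (coords h (cell χ ρ t)).ncard = d := by
  rw [coords_cell hb h1 h2 hρ ht, ← image_univ, ncard_image_of_injective _ hm.injective, ncard_univ,
    Nat.card_eq_fintype_card, Fintype.card_fin]

theorem cell_inj {ρ ρ' : Fin M → Option (Fin n → Fin d)} (hρ : Onto ρ) (hρ' : Onto ρ')
    {s t : Fin d → ℝ} (hs : StrictMono s) (hs' : ∀ i, s i ∈ Ioo (0 : ℝ) 1) (ht : StrictMono t)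
    (ht' : ∀ i, t i ∈ Ioo (0 : ℝ) 1) (e : cell χ ρ s = cell χ ρ' t) : ρ = ρ' ∧ s = t := by
  have h3 : s = t := by
    rw [← hs.range_inj ht, ← coords_cell hb h1 h2 hρ hs', e, coords_cell hb h1 h2 hρ' ht']
  subst h3
  refine ⟨funext fun i => ?_, rfl⟩
  have h4 := congrFun e i
  unfold cell at h4
  rcases hr : ρ i with _ | r <;> rcases hr' : ρ' i with _ | r' <;> rw [hr, hr'] at h4
  · change ∞ = χ (s ∘ r') at h4
    rw [h1 (s ∘ r') fun k => hs' _] at h4
    exact absurd h4 (infty_ne_coe _)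
  · change χ (s ∘ r) = ∞ at h4
    rw [h1 (s ∘ r) fun k => hs' _] at h4
    exact absurd h4 (coe_ne_infty _)
  · change χ (s ∘ r) = χ (s ∘ r') at h4
    rw [h1 (s ∘ r) fun k => hs' _, h1 (s ∘ r') fun k => hs' _, coe_eq_coe] at h4
    congr 1
    funext k
    exact hs.injective (hb.injOn (hs' _) (hs' _) (congrFun h4 k))

omit h2 in
theorem exists_cell (y : Fin M → Sp n) (hy : (coords h y).ncard = d) :
    ∃ (ρ : Fin M → Option (Fin n → Fin d)) (t : Fin d → ℝ), Onto ρ ∧ StrictMono t ∧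
      (∀ i, t i ∈ Ioo (0 : ℝ) 1) ∧ cell χ ρ t = y := by
  have hf := coords_finite hb y
  have hc : hf.toFinset.card = d := by rw [← hy, ncard_eq_toFinset_card _ hf]
  obtain ⟨t, hm, hr⟩ : ∃ t : Fin d → ℝ, StrictMono t ∧ range t = coords h y :=
    ⟨hf.toFinset.orderEmbOfFin hc, (hf.toFinset.orderEmbOfFin hc).strictMono, by
      rw [Finset.range_orderEmbOfFin, Finite.coe_toFinset]⟩
  have ht : ∀ i, t i ∈ coords h y := fun i => hr ▸ mem_range_self i
  have h3 : ∀ i, ∃ o : Option (Fin n → Fin d), (o.elim ∞ fun r => χ (t ∘ r)) = y i ∧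
      ∀ v : Fin n → ℝ, y i = (v : Sp n) → ∃ r, o = Option.some r ∧ ∀ k, h (t (r k)) = v k := by
    intro i
    induction hv : y i using OnePoint.rec with
    | infty => exact ⟨none, rfl, fun v h4 => absurd h4 (infty_ne_coe v)⟩
    | coe v =>
      have h4 : ∀ k, ∃ j, h (t j) = v k := by
        intro k
        obtain ⟨u, hu, h5⟩ := hb.surjOn (mem_univ (v k))
        have h6 : u ∈ range t := hr ▸ ⟨hu, i, v, k, hv, h5.symm⟩
        obtain ⟨j, rfl⟩ := h6
        exact ⟨j, h5⟩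
      choose r hr using h4
      refine ⟨Option.some r, ?_, fun v' h5 => ⟨r, rfl, fun k => ?_⟩⟩
      · change χ (t ∘ r) = _
        rw [h1 (t ∘ r) fun k => (ht _).1]
        exact congrArg _ (funext hr)
      · rw [coe_eq_coe] at h5
        rw [← h5, hr]
  choose ρ hρ hρ' using h3
  refine ⟨ρ, t, fun j => ?_, hm, fun i => (ht i).1, funext hρ⟩
  obtain ⟨hu, i, v, k, h4, h5⟩ := ht j
  obtain ⟨r, h6, h7⟩ := hρ' i v h4
  exact ⟨i, r, k, h6, hm.injective (hb.injOn (ht _).1 hu ((h7 k).trans h5))⟩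

end

theorem cont_cell (hc : ContinuousOn χ {t | ∀ i, t i ∈ Icc (0 : ℝ) 1})
    (ρ : Fin M → Option (Fin n → Fin d)) : ContinuousOn (cell χ ρ) (ordS d) := by
  refine continuousOn_pi.2 fun i => ?_
  unfold cell
  rcases ρ i with _ | r
  · exact continuousOn_const
  · exact hc.comp (f := fun t : Fin d → ℝ => t ∘ r) (by fun_prop) fun t ht k => ht.2 _

/-- **row CELL** -/
theorem cellS : CellS := by
  intro hB hχ n M Z _ q hq hq'
  obtain ⟨h, χ, hb, hc, h1, h2⟩ := hχ n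
  have hi : ∀ d (t : Fin d → ℝ), t ∈ interior (ordS d) ↔
      StrictMono t ∧ ∀ i, t i ∈ Ioo (0 : ℝ) 1 := fun d t => by
    rw [(hB d).2.2.2]
    rfl
  refine ⟨{ N := M * n + 1
            P := fun d => {ρ : Fin M → Option (Fin n → Fin d) // Onto ρ}
            fin := fun d => Fintype.ofFinite _
            sk := fun d => {y | (coords h y).ncard < d}
            sk_zero := eq_empty_of_forall_notMem fun y hy => Nat.not_lt_zero _ hy
            sk_top := eq_univ_of_forall fun y => Nat.lt_succ_of_le (coords_card hb y)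
            mono := fun d y hy => Nat.lt_succ_of_lt hy
            c := fun d x => cell χ x.1
            cont := fun d x => cont_cell hc x.1
            bd := fun d x t ht => ?_
            inj := fun d x y s hs t ht e => ?_
            cov := fun d => ?_
            act := fun σ => ⟨fun y => y ∘ σ, by fun_prop⟩
            act_mul := fun g k y => rfl
            act_sk := fun d g y => ?_
            pact := fun d g x => ⟨x.1 ∘ g, fun j => ?_⟩
            c_act := fun d g x s => rfl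
            q := q
            q_surj := hq
            q_eq := hq' }, rfl, fun σ y => rfl⟩
  · rw [(hB d).2.1.isClosed.frontier_eq] at ht
    exact card_bd hb h1 h2 x.1 ht.1.1 fun h3 => ht.2 ((hi d t).2 h3)
  · obtain ⟨h3, h4⟩ := cell_inj hb h1 h2 x.2 y.2 ((hi d s).1 hs).1 ((hi d s).1 hs).2
      ((hi d t).1 ht).1 ((hi d t).1 ht).2 e
    exact ⟨Subtype.ext h3, h4⟩
  · ext y
    constructor
    · rintro ⟨h3, h4⟩
      obtain ⟨ρ, t, h5, h6, h7, h8⟩ := exists_cell hb h1 y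
        (le_antisymm (Nat.le_of_lt_succ h3) (not_lt.1 h4))
      exact mem_iUnion.2 ⟨⟨ρ, h5⟩, t, (hi d t).2 ⟨h6, h7⟩, h8⟩
    · intro hy
      obtain ⟨x, t, ht, rfl⟩ := mem_iUnion.1 hy
      have h3 := card_int hb h1 h2 x.2 ((hi d t).1 ht).1 ((hi d t).1 ht).2
      exact ⟨h3.le.trans_lt (Nat.lt_succ_self d), fun h4 => absurd h3 (ne_of_lt h4)⟩
  · change (coords h (y ∘ g)).ncard < d ↔ (coords h y).ncard < d
    rw [coords_perm]
  · obtain ⟨i, r, k, h3, h4⟩ := x.2 j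
    exact ⟨g.symm i, r, k, by simpa using h3, h4⟩

end Vale.Agent.P251EJ56
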